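import Vale.Agent.Lib.P344.Main

namespace Vale.Agent.Results.P344.LinearBound3n

open Vale.Agent.Lib.P344

/-- Every linear circuit computing the unnormalized discrete Fourier transform `F_n`
(`n ≥ 2`, arbitrary complex scalars, every gate costs one) has at least
`3n - d(n) - 2` gates, where `d(n)` is the number of divisors of `n`. -/
theorem result : ∀ (n : ℕ), 2 ≤ n → ∀ (gates : List Gate) (out : Fin n → ℕ),
    ComputesDFT n gates out → 3 * n ≤ gates.length + n.divisors.card + 2 :=
  fun n hn gates out h => dft_lower_bound n hn gates out h

end Vale.Agent.Results.P344.LinearBound3n
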